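import Vale.Agent.P207.N3.H908.Ext
import Vale.Agent.P207.N3.H465.Cov
import Vale.Agent.P207.Q.H916.Fr2

/-!
# P207, line N3, R12: the frames at one point

* `rotX A x`: the right action of the orthogonal group on the frames of a covering
  (`rotX A (q, f) = (q, f·A)`), `rotE R x`, `rotO a x` the same for isometries of `Rⁿ` resp. for
  `ext a`, `a : O2`.
* `mkFiber`: the structure `Fiber L` from an action of `O3` on `X` which restricts to `L.rot`.
-/

open Set Filter Topology
open scoped Manifold ContDiff

noncomputable section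

set_option maxSynthPendingDepth 3
set_option linter.unusedSectionVars false

namespace Vale.Agent.P207.N3.H908

/-! ### abstract form -/

section Abs

variable {Γ X B : Type} [Group Γ] [MetricSpace X] [ProperSpace X] [MulAction Γ X]
  [IsIsometricSMul Γ X] [TopologicalSpace B] [CompactSpace B] [T2Space B] [MulAction Γ B]
  [ContinuousConstSMul Γ B]

/-- `Fiber L` from an action of `O3` which restricts to `L.rot` -/
def mkFiber (L : Leaf Γ X B) (x₀ : X) (act : O3 → X → X)
    (act_mul : ∀ R S x, act (R * S) x = act S (act R x))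
    (act_rot : ∀ a x, L.rot a x = act (ext a) x)
    (act_cont : ∀ (Y : Type) [TopologicalSpace Y] (R : Y → O3),
      (Continuous fun p : Y × E3 => R p.1 p.2) → Continuous fun y => act (R y) x₀) :
    Fiber L where
  fib R := act R x₀
  fib_cont := act_cont
  ext := ext
  ext_zero := ext_zero
  ext_succ := ext_succ
  fib_rot R a := by rw [act_mul, act_rot]

end Abs

/-! ### frames of a covering -/

section Frames

open Vale.Agent.P255 (RMetric)
open Vale.Agent.P207.Q H465

variable {n : ℕ} {M : Type} [TopologicalSpace M] [ChartedSpace (EV n) M]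
  [IsManifold 𝓘(ℝ, EV n) ∞ M] {g : RMetric (EV n) M} {A : Type} [TopologicalSpace A] {e : A → M}

/-- right action of the orthogonal group on the frames of a covering -/
def rotX (S : Fr.On n) (x : PB e (Fr.pt (g := g))) : PB e (Fr.pt (g := g)) :=
  PB.mk x.q (Fr.rot S x.f) x.e_q

@[simp] theorem q_rotX (S : Fr.On n) (x : PB e (Fr.pt (g := g))) : (rotX S x).q = x.q := rfl

@[simp] theorem f_rotX (S : Fr.On n) (x : PB e (Fr.pt (g := g))) :
    (rotX S x).f = Fr.rot S x.f := rfl

theorem rotX_one (x : PB e (Fr.pt (g := g))) : rotX 1 x = x := PB.ext rfl (Fr.rot_one x.f)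

theorem rotX_mul (S T : Fr.On n) (x : PB e (Fr.pt (g := g))) :
    rotX (S * T) x = rotX T (rotX S x) := PB.ext rfl (Fr.rot_rot S T x.f).symm

theorem rotX_smul (γ : Deck e) (S : Fr.On n) (x : PB e (Fr.pt (g := g))) :
    rotX S (γ • x) = γ • rotX S x := rfl

theorem continuous_rotX [NeZero n] :
    Continuous fun p : Fr.On n × PB e (Fr.pt (g := g)) => rotX p.1 p.2 := by
  have h0 : Continuous fun p : Fr.On n × PB e (Fr.pt (g := g)) => p.2 := continuous_snd
  have h1 : Continuous fun p : Fr.On n × PB e (Fr.pt (g := g)) => p.2.q := PB.continuous_q.comp h0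
  have h2 : Continuous fun p : Fr.On n × PB e (Fr.pt (g := g)) => p.2.f := PB.continuous_f.comp h0
  have h3 : Continuous fun p : Fr.On n × PB e (Fr.pt (g := g)) => Fr.rot p.1 p.2.f :=
    Fr.continuous_rot.comp (continuous_fst.prodMk h2)
  exact PB.continuous_iff.2 ⟨h1, h3⟩

/-- two frames at the same point of the covering differ by a rotation -/
theorem exists_rotX {x y : PB e (Fr.pt (g := g))} (h : x.q = y.q) : ∃ S, rotX S x = y := by
  obtain ⟨S, hS⟩ := Fr.exists_rot (f := x.f) (f' := y.f) (by
    rw [← x.e_q, ← y.e_q, h])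
  exact ⟨S, PB.ext h hS⟩

/-- action of the isometries of `Rⁿ` -/
def rotE (R : OE n) (x : PB e (Fr.pt (g := g))) : PB e (Fr.pt (g := g)) := rotX (mo R) x

@[simp] theorem q_rotE (R : OE n) (x : PB e (Fr.pt (g := g))) : (rotE R x).q = x.q := rfl

theorem rotE_one (x : PB e (Fr.pt (g := g))) : rotE 1 x = x := by
  rw [rotE, map_one, rotX_one]

theorem rotE_mul (R S : OE n) (x : PB e (Fr.pt (g := g))) :
    rotE (R * S) x = rotE S (rotE R x) := by
  rw [rotE, map_mul, rotX_mul]
  rfl

theorem rotE_smul (γ : Deck e) (R : OE n) (x : PB e (Fr.pt (g := g))) :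
    rotE R (γ • x) = γ • rotE R x := rfl

theorem continuous_rotE_left [NeZero n] {Y : Type} [TopologicalSpace Y] {R : Y → OE n}
    (hR : Continuous fun p : Y × EuclideanSpace ℝ (Fin n) => R p.1 p.2)
    (x : PB e (Fr.pt (g := g))) : Continuous fun y => rotE (R y) x :=
  continuous_rotX.comp ((continuous_mo hR).prodMk continuous_const)

theorem continuous_rotE_right [NeZero n] (R : OE n) :
    Continuous (rotE R : PB e (Fr.pt (g := g)) → _) :=
  continuous_rotX.comp (Continuous.prodMk_right _)

theorem exists_rotE {x y : PB e (Fr.pt (g := g))} (h : x.q = y.q) : ∃ R, rotE R x = y := by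
  obtain ⟨S, hS⟩ := exists_rotX h
  obtain ⟨R, rfl⟩ := mo_surjective S
  exact ⟨R, hS⟩

/-- the vectors of the rotated frame -/
theorem f_rotE_e (R : OE n) (x : PB e (Fr.pt (g := g))) (j : Fin n) :
    (rotE R x).f.e j = ∑ i, R (EuclideanSpace.single j 1) i • x.f.e i := rfl

end Frames

section Frames3

open Vale.Agent.P255 (RMetric)
open Vale.Agent.P207.Q H465

variable {M : Type} [TopologicalSpace M] [ChartedSpace (EV 3) M]
  [IsManifold 𝓘(ℝ, EV 3) ∞ M] {g : RMetric (EV 3) M} {A : Type} [TopologicalSpace A] {e : A → M}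

/-- change of the two last vectors of the frame -/
def rotO (a : O2) (x : PB e (Fr.pt (g := g))) : PB e (Fr.pt (g := g)) := rotE (ext a) x

theorem rotO_one (x : PB e (Fr.pt (g := g))) : rotO 1 x = x := by
  rw [rotO, ext_one, rotE_one]

theorem rotO_mul (a b : O2) (x : PB e (Fr.pt (g := g))) : rotO (a * b) x = rotO b (rotO a x) := by
  rw [rotO, ext_mul, rotE_mul]
  rfl

theorem continuous_rotO (a : O2) : Continuous (rotO a : PB e (Fr.pt (g := g)) → _) :=
  continuous_rotE_right _

theorem rotO_smul (γ : Deck e) (a : O2) (x : PB e (Fr.pt (g := g))) :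
    rotO a (γ • x) = γ • rotO a x := rfl

/-- the first vector of the frame does not change -/
theorem rotO_e_zero (a : O2) (x : PB e (Fr.pt (g := g))) : (rotO a x).f.e 0 = x.f.e 0 := by
  rw [rotO, f_rotE_e, Fin.sum_univ_three]
  have h0 : ext a (EuclideanSpace.single 0 1) 0 = 1 := by
    rw [ext_zero]
    simp
  have h2 : tl (EuclideanSpace.single (0 : Fin 3) (1 : ℝ)) = 0 := by
    ext i
    fin_cases i <;> simp [tl]
  have h1 : ∀ i : Fin 2, ext a (EuclideanSpace.single 0 1) i.succ = 0 := by
    intro i
    rw [ext_succ]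
    change a (tl (EuclideanSpace.single (0 : Fin 3) (1 : ℝ))) i = 0
    rw [h2, map_zero]
    rfl
  have h3 := h1 0
  have h4 := h1 1
  change ext a (EuclideanSpace.single 0 1) 1 = 0 at h3
  change ext a (EuclideanSpace.single 0 1) 2 = 0 at h4
  rw [h0, h3, h4, one_smul, zero_smul, zero_smul, add_zero, add_zero]

/-- the two last vectors: the frame `(rotO a x)_j = ∑ᵢ a_ij x_i` -/
theorem rotO_e_succ (a : O2) (x : PB e (Fr.pt (g := g))) (j : Fin 2) :
    (rotO a x).f.e j.succ = a (EuclideanSpace.single j 1) 0 • x.f.e 1 +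
      a (EuclideanSpace.single j 1) 1 • x.f.e 2 := by
  rw [rotO, f_rotE_e, Fin.sum_univ_three]
  have h0 : ext a (EuclideanSpace.single j.succ 1) 0 = 0 := by
    rw [ext_zero]
    simp
  have h2 : tl (EuclideanSpace.single j.succ (1 : ℝ)) = EuclideanSpace.single j 1 := by
    ext i
    fin_cases i <;> fin_cases j <;> simp [tl]
  have h1 : ∀ i : Fin 2, ext a (EuclideanSpace.single j.succ 1) i.succ =
      a (EuclideanSpace.single j 1) i := by
    intro i
    rw [ext_succ]
    change a (tl (EuclideanSpace.single j.succ (1 : ℝ))) i = _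
    rw [h2]
  have h3 := h1 0
  have h4 := h1 1
  change ext a (EuclideanSpace.single j.succ 1) 1 = _ at h3
  change ext a (EuclideanSpace.single j.succ 1) 2 = _ at h4
  rw [h0, h3, h4, zero_smul, zero_add]

end Frames3

end Vale.Agent.P207.N3.H908
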