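import Vale.Agent.P207.N3.H908.TotDE
import Vale.Agent.P207.N3.H862.Inv

/-!
# Busemann data (helper908, line N3 of P207, row P12G)

`BD B V`: the Busemann functions `b ξ : V → ℝ`, `ξ ∈ B`, on the universal cover `V`, with their
differentials, which are the unit covectors for the dual metric `gs`. If the Hessian of `b ξ` at `q`
is a smooth function of `(q, D b ξ q)` then `D b ξ (q')` and `b ξ q' - b ξ q` are smooth functions of
`(q, D b ξ q, q')`.
-/

open Set Filter Topology Metric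
open scoped ContDiff

noncomputable section

namespace Vale.Agent.P207.N3.H908

/-- Busemann functions on the universal cover `V`. -/
structure BD (B V : Type) [TopologicalSpace B] [NormedAddCommGroup V] [NormedSpace ℝ V] where
  /-- the Busemann function of `ξ` (gradient = unit vector pointing away from `ξ`) -/
  b : B → V → ℝ
  b_jc : JC b univ
  /-- the end point of the geodesic from `ξ` through `q` -/
  line : B → V → B
  line_cont : Continuous fun p : B × V => line p.1 p.2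
  line_deriv : ∀ ξ q, fderiv ℝ (b (line ξ q)) q = -fderiv ℝ (b ξ) q
  inj : ∀ ξ ξ' q, fderiv ℝ (b ξ) q = fderiv ℝ (b ξ') q → ξ = ξ'
  surj : ∀ q (l : V →L[ℝ] ℝ), l ≠ 0 → ∃ ξ, ∃ c : ℝ, 0 < c ∧ l = c • fderiv ℝ (b ξ) q
  /-- the dual metric: `sh q l` is the vector which corresponds to the covector `l` at `q` -/
  sh : V → (V →L[ℝ] ℝ) →L[ℝ] V
  sh_smooth : ContDiff ℝ ∞ sh
  sh_symm : ∀ (q : V) (l l' : V →L[ℝ] ℝ), l' (sh q l) = l (sh q l')
  unit : ∀ ξ q, fderiv ℝ (b ξ) q (sh q (fderiv ℝ (b ξ) q)) = 1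
  /-- the second fundamental forms of the two horospheres add up to a positive form -/
  pos : ∀ ξ q v, fderiv ℝ (b ξ) q v = 0 → v ≠ 0 →
    0 < fderiv ℝ (fderiv ℝ (b ξ)) q v v + fderiv ℝ (fderiv ℝ (b (line ξ q))) q v v

namespace BD

variable {B V : Type} [TopologicalSpace B] [NormedAddCommGroup V] [NormedSpace ℝ V]
  (D : BD B V)

/-- the differential of the Busemann function -/
def ell (ξ : B) (q : V) : V →L[ℝ] ℝ := fderiv ℝ (D.b ξ) q

theorem ell_jc : JC D.ell univ := D.b_jc.fderiv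

theorem ell_cont : Continuous fun p : B × V => D.ell p.1 p.2 := by
  have := D.ell_jc.continuousOn
  rwa [continuousOn_univ] at this

theorem hess_jc : JC (fun ξ => fderiv ℝ (D.ell ξ)) univ := D.ell_jc.fderiv

theorem b_diff (ξ : B) (q : V) : HasFDerivAt (D.b ξ) (D.ell ξ q) q :=
  D.b_jc.hasFDerivAt (p := (ξ, q)) (mem_univ _)

theorem ell_diff (ξ : B) (q : V) : HasFDerivAt (D.ell ξ) (fderiv ℝ (D.ell ξ) q) q :=
  D.ell_jc.hasFDerivAt (p := (ξ, q)) (mem_univ _)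

theorem ell_line (ξ : B) (q : V) : D.ell (D.line ξ q) q = -D.ell ξ q := D.line_deriv ξ q

theorem ell_inj {ξ ξ' : B} {q : V} (h : D.ell ξ q = D.ell ξ' q) : ξ = ξ' := D.inj ξ ξ' q h

/-- the gradient of `b ξ` -/
def vel (ξ : B) (q : V) : V := D.sh q (D.ell ξ q)

theorem ell_vel (ξ : B) (q : V) : D.ell ξ q (D.vel ξ q) = 1 := D.unit ξ q

theorem vel_line (ξ : B) (q : V) : D.vel (D.line ξ q) q = -D.vel ξ q := by
  rw [vel, D.ell_line, map_neg]
  rfl

theorem ell_ne (ξ : B) (q : V) : D.ell ξ q ≠ 0 := fun h => by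
  have := D.ell_vel ξ q
  rw [h] at this
  simp at this

/-- the sum of the two Hessians at a point of a geodesic -/
def Sg (ξ : B) (q : V) : V →L[ℝ] V →L[ℝ] ℝ :=
  fderiv ℝ (D.ell ξ) q + fderiv ℝ (D.ell (D.line ξ q)) q

theorem hess_symm (ξ : B) (q v w : V) :
    fderiv ℝ (D.ell ξ) q v w = fderiv ℝ (D.ell ξ) q w v := by
  have h1 : ContDiffAt ℝ ∞ (D.b ξ) q := D.b_jc.contDiffAt (p := (ξ, q)) (mem_univ _)
  have h2 : ContDiffAt ℝ 2 (D.b ξ) q := h1.of_le (by norm_cast)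
  exact (h2.isSymmSndFDerivAt (by simp)) v w

theorem Sg_symm (ξ : B) (q v w : V) : D.Sg ξ q v w = D.Sg ξ q w v := by
  simp only [Sg, add_apply]
  rw [D.hess_symm, D.hess_symm (D.line ξ q)]

/-- the derivative of the unit relation -/
theorem unit_deriv (ξ : B) (q v : V) :
    D.ell ξ q (fderiv ℝ D.sh q v (D.ell ξ q))
      + 2 * fderiv ℝ (D.ell ξ) q v (D.vel ξ q) = 0 := by
  have h1 : HasFDerivAt D.sh (fderiv ℝ D.sh q) q :=
    (D.sh_smooth.differentiable (by simp) q).hasFDerivAt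
  have h2 := D.ell_diff ξ q
  have h3 := h2.clm_apply (h1.clm_apply h2)
  have h4 : (fun y => D.ell ξ y (D.sh y (D.ell ξ y))) = fun _ => (1 : ℝ) :=
    funext fun y => D.ell_vel ξ y
  rw [h4] at h3
  have h5 := h3.unique (hasFDerivAt_const (1 : ℝ) q)
  have h6 := congrArg (fun A : V →L[ℝ] ℝ => A v) h5
  simp only [add_apply, ContinuousLinearMap.comp_apply,
    ContinuousLinearMap.flip_apply, zero_apply, map_add] at h6
  rw [D.sh_symm q (fderiv ℝ (D.ell ξ) q v) (D.ell ξ q)] at h6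
  have h7 : fderiv ℝ (D.ell ξ) q v (D.sh q (D.ell ξ q)) = fderiv ℝ (D.ell ξ) q v (D.vel ξ q) := rfl
  rw [h7] at h6
  linarith

/-- the direction of the geodesic is in the kernel of the sum of the Hessians -/
theorem Sg_vel (ξ : B) (q v : V) : D.Sg ξ q v (D.vel ξ q) = 0 := by
  have h1 := D.unit_deriv ξ q v
  have h2 := D.unit_deriv (D.line ξ q) q v
  rw [D.ell_line, D.vel_line] at h2
  simp only [map_neg, neg_apply, neg_neg] at h2
  simp only [Sg, add_apply]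
  linarith

theorem Sg_pos {ξ : B} {q v : V} (hv : D.ell ξ q v = 0) (h0 : v ≠ 0) : 0 < D.Sg ξ q v v :=
  D.pos ξ q v hv h0

/-- positivity transversally to the geodesic -/
theorem Sg_pos' {ξ : B} {q v : V} (h : ∀ c : ℝ, v ≠ c • D.vel ξ q) : 0 < D.Sg ξ q v v := by
  set c : ℝ := D.ell ξ q v with hc
  set k : V := v - c • D.vel ξ q with hk
  have h1 : D.ell ξ q k = 0 := by
    rw [hk, map_sub, map_smul, D.ell_vel, smul_eq_mul, mul_one, hc, sub_self]
  have h2 : k ≠ 0 := fun h0 => h c (sub_eq_zero.1 h0)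
  have h3 := D.Sg_pos h1 h2
  have h4 : D.Sg ξ q k k = D.Sg ξ q v v := by
    have e1 : ∀ w, D.Sg ξ q w (D.vel ξ q) = 0 := D.Sg_vel ξ q
    have e2 : ∀ w, D.Sg ξ q (D.vel ξ q) w = 0 := fun w => by rw [D.Sg_symm, e1]
    rw [hk]
    simp only [map_sub, map_smul, sub_apply, smul_apply,
      e1, e2, smul_zero, sub_zero]
  rwa [h4] at h3

/-! ### Directions -/

/-- the norm of a covector -/
def nrm (p : V × (V →L[ℝ] ℝ)) : ℝ := Real.sqrt (p.2 (D.sh p.1 p.2))

/-- the nonzero covectors -/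
def cov : Set (V × (V →L[ℝ] ℝ)) := {p | p.2 ≠ 0}

omit [NormedAddCommGroup V] [NormedSpace ℝ V] in
theorem isOpen_cov [NormedAddCommGroup V] [NormedSpace ℝ V] :
    IsOpen (cov : Set (V × (V →L[ℝ] ℝ))) :=
  isOpen_ne_fun continuous_snd continuous_const

theorem sq_ell (ξ : B) (q : V) (c : ℝ) :
    (c • D.ell ξ q) (D.sh q (c • D.ell ξ q)) = c * c := by
  have h : D.ell ξ q (D.sh q (D.ell ξ q)) = 1 := D.ell_vel ξ q
  simp only [map_smul, smul_apply, smul_eq_mul, h, mul_one]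

theorem nrm_smul_ell {ξ : B} {q : V} {c : ℝ} (hc : 0 < c) : D.nrm (q, c • D.ell ξ q) = c := by
  simp only [nrm, D.sq_ell]
  rw [Real.sqrt_mul_self hc.le]

theorem gs_pos {p : V × (V →L[ℝ] ℝ)} (hp : p ∈ (cov : Set (V × (V →L[ℝ] ℝ)))) :
    0 < p.2 (D.sh p.1 p.2) := by
  obtain ⟨ξ, c, hc, h⟩ := D.surj p.1 p.2 hp
  have h' : p.2 = c • D.ell ξ p.1 := h
  rw [h', D.sq_ell]
  positivity

theorem nrm_pos {p : V × (V →L[ℝ] ℝ)} (hp : p ∈ (cov : Set (V × (V →L[ℝ] ℝ)))) : 0 < D.nrm p :=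
  Real.sqrt_pos.2 (D.gs_pos hp)

theorem nrm_smooth : ContDiffOn ℝ ∞ D.nrm cov := by
  have h1 : ContDiff ℝ ∞ (fun p : V × (V →L[ℝ] ℝ) => p.2 (D.sh p.1 p.2)) :=
    contDiff_snd.clm_apply ((D.sh_smooth.comp contDiff_fst).clm_apply contDiff_snd)
  exact fun p hp => (h1.contDiffAt.sqrt (D.gs_pos hp).ne').contDiffWithinAt

open Classical in
/-- the point at infinity with a given covector at `q` -/
def dir [Nonempty B] (p : V × (V →L[ℝ] ℝ)) : B :=
  if h : ∃ ξ, p.2 = D.nrm p • D.ell ξ p.1 then h.choose else Classical.arbitrary B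

variable [Nonempty B]

theorem dir_spec {p : V × (V →L[ℝ] ℝ)} (hp : p ∈ (cov : Set (V × (V →L[ℝ] ℝ)))) :
    D.nrm p • D.ell (D.dir p) p.1 = p.2 := by
  have h : ∃ ξ, p.2 = D.nrm p • D.ell ξ p.1 := by
    obtain ⟨ξ, c, hc, h⟩ := D.surj p.1 p.2 hp
    have h' : p.2 = c • D.ell ξ p.1 := h
    refine ⟨ξ, ?_⟩
    have : D.nrm p = c := by
      have := D.nrm_smul_ell (ξ := ξ) (q := p.1) hc
      rwa [← h'] at this
    rw [this, h']
  rw [dir, dif_pos h]
  exact h.choose_spec.symm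

theorem dir_eq {ξ : B} {q : V} {c : ℝ} (hc : 0 < c) : D.dir (q, c • D.ell ξ q) = ξ := by
  have hp : (q, c • D.ell ξ q) ∈ (cov : Set (V × (V →L[ℝ] ℝ))) :=
    smul_ne_zero hc.ne' (D.ell_ne ξ q)
  have h := D.dir_spec hp
  rw [D.nrm_smul_ell hc] at h
  exact D.ell_inj (smul_right_injective _ hc.ne' h)

theorem dir_eq' {ξ : B} {q : V} : D.dir (q, D.ell ξ q) = ξ := by
  have := D.dir_eq (ξ := ξ) (q := q) one_pos
  rwa [one_smul] at this

omit [Nonempty B] in
theorem nrm_eq' {ξ : B} {q : V} : D.nrm (q, D.ell ξ q) = 1 := by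
  have := D.nrm_smul_ell (ξ := ξ) (q := q) one_pos
  rwa [one_smul] at this

theorem dir_cont [CompactSpace B] : ContinuousOn D.dir cov := by
  intro p₀ hp₀
  refine ContinuousAt.continuousWithinAt ?_
  rw [ContinuousAt, _root_.tendsto_nhds]
  intro O hO hmem
  have hK : IsCompact (Oᶜ : Set B) := hO.isClosed_compl.isCompact
  have hn : ContinuousAt D.nrm p₀ := D.nrm_smooth.continuousOn.continuousAt (isOpen_cov.mem_nhds hp₀)
  have h1 : ∀ ξ ∈ (Oᶜ : Set B), ∀ᶠ z : (V × (V →L[ℝ] ℝ)) × B in 𝓝 (p₀, ξ),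
      D.nrm z.1 • D.ell z.2 z.1.1 ≠ z.1.2 := by
    intro ξ hξ
    have hne : D.nrm p₀ • D.ell ξ p₀.1 ≠ p₀.2 := by
      intro h
      rw [← D.dir_spec hp₀] at h
      have h2 := smul_right_injective _ (D.nrm_pos hp₀).ne' h
      exact hξ (by rw [D.ell_inj h2]; exact hmem)
    have hc1 : ContinuousAt (fun z : (V × (V →L[ℝ] ℝ)) × B => D.nrm z.1) (p₀, ξ) :=
      ContinuousAt.comp (f := fun z : (V × (V →L[ℝ] ℝ)) × B => z.1) (x := (p₀, ξ)) hn
        continuousAt_fst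
    have hc2 : Continuous (fun z : (V × (V →L[ℝ] ℝ)) × B => D.ell z.2 z.1.1) :=
      D.ell_cont.comp (f := fun z : (V × (V →L[ℝ] ℝ)) × B => (z.2, z.1.1)) (by fun_prop)
    have hc3 : ContinuousAt (fun z : (V × (V →L[ℝ] ℝ)) × B => z.1.2) (p₀, ξ) := by fun_prop
    exact ((hc1.smul hc2.continuousAt).prodMk hc3).eventually
      ((isClosed_diagonal.isOpen_compl).mem_nhds hne)
  have h2 := hK.eventually_forall_of_forall_eventually
    (P := fun p ξ => D.nrm p • D.ell ξ p.1 ≠ p.2) h1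
  filter_upwards [h2, isOpen_cov.mem_nhds hp₀] with p hp hp'
  by_contra hn'
  exact hp _ hn' (D.dir_spec hp')

/-! ### The total differential equation -/

/-- the Hessian as a function of the covector -/
def Hs (p : V × (V →L[ℝ] ℝ)) : V →L[ℝ] V →L[ℝ] ℝ :=
  D.nrm p • fderiv ℝ (D.ell (D.dir p)) p.1

/-- nonzero covectors, and the value of the function -/
def Om : Set (V × ((V →L[ℝ] ℝ) × ℝ)) := {p | p.2.1 ≠ 0}

/-- right side of the total differential equation -/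
def HT (p : V × ((V →L[ℝ] ℝ) × ℝ)) : V →L[ℝ] (V →L[ℝ] ℝ) × ℝ :=
  (D.Hs (p.1, p.2.1)).prod p.2.1

/-- the solutions -/
def LT (p : V × ((V →L[ℝ] ℝ) × ℝ)) (q : V) : (V →L[ℝ] ℝ) × ℝ :=
  (D.nrm (p.1, p.2.1) • D.ell (D.dir (p.1, p.2.1)) q,
    p.2.2 + D.nrm (p.1, p.2.1) * (D.b (D.dir (p.1, p.2.1)) q - D.b (D.dir (p.1, p.2.1)) p.1))

/-- The Hessian is a smooth function of the covector. -/
def SmoothHess : Prop := ContDiffOn ℝ ∞ D.Hs cov

theorem tot (hs : D.SmoothHess) : Tot (Om : Set (V × ((V →L[ℝ] ℝ) × ℝ))) D.HT D.LT where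
  isOpen := isOpen_ne_fun (continuous_fst.comp continuous_snd) continuous_const
  smooth := by
    have h1 : ContDiff ℝ ∞ (fun p : V × ((V →L[ℝ] ℝ) × ℝ) => (p.1, p.2.1)) :=
      contDiff_fst.prodMk (contDiff_fst.comp contDiff_snd)
    have h2 : ContDiffOn ℝ ∞ (fun p : V × ((V →L[ℝ] ℝ) × ℝ) => D.Hs (p.1, p.2.1)) Om :=
      ContDiffOn.comp (t := cov) hs h1.contDiffOn fun p hp => hp
    have h3 : ContDiff ℝ ∞ (fun p : V × ((V →L[ℝ] ℝ) × ℝ) => p.2.1) :=
      contDiff_fst.comp contDiff_snd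
    have h4 : ContDiffOn ℝ ∞ (fun p : V × ((V →L[ℝ] ℝ) × ℝ) =>
        (ContinuousLinearMap.inl ℝ (V →L[ℝ] ℝ) ℝ).comp (D.Hs (p.1, p.2.1))
          + (ContinuousLinearMap.inr ℝ (V →L[ℝ] ℝ) ℝ).comp p.2.1) Om :=
      (contDiffOn_const.clm_comp h2).add (contDiffOn_const.clm_comp h3.contDiffOn)
    refine h4.congr fun p _ => ?_
    ext1 v
    simp [HT]
  zero p hp := by
    have h := D.dir_spec (p := (p.1, p.2.1)) hp
    simp only [LT, sub_self, mul_zero, add_zero]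
    rw [h]
  mem p hp q := by
    have h := D.nrm_pos (p := (p.1, p.2.1)) hp
    exact smul_ne_zero h.ne' (D.ell_ne _ q)
  deriv p hp q := by
    have h := D.nrm_pos (p := (p.1, p.2.1)) hp
    have h1 : D.HT (q, D.LT p q) = (D.nrm (p.1, p.2.1) • fderiv ℝ (D.ell (D.dir (p.1, p.2.1))) q).prod
        (D.nrm (p.1, p.2.1) • D.ell (D.dir (p.1, p.2.1)) q) := by
      simp only [HT, LT, Hs, D.nrm_smul_ell h, D.dir_eq h]
    rw [h1]
    refine HasFDerivAt.prodMk (HasFDerivAt.fun_const_smul (D.ell_diff _ q) _) ?_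
    exact (((D.b_diff _ q).sub_const _).const_mul _).const_add _
  move p hp q q' := by
    have h := D.nrm_pos (p := (p.1, p.2.1)) hp
    simp only [LT, D.nrm_smul_ell h, D.dir_eq h]
    refine Prod.ext rfl ?_
    simp only
    ring

/-- **`D b ξ q'` and `b ξ q' - b ξ q` are smooth functions of `(q, D b ξ q, q')`.** -/
theorem LT_smooth [FiniteDimensional ℝ V] (hs : D.SmoothHess) :
    ContDiffOn ℝ ∞ (fun x : (V × ((V →L[ℝ] ℝ) × ℝ)) × V => D.LT x.1 x.2) (Om ×ˢ univ) :=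
  (D.tot hs).contDiffOn

theorem LT_ell (ξ : B) (q q' : V) :
    D.LT (q, (D.ell ξ q, 0)) q' = (D.ell ξ q', D.b ξ q' - D.b ξ q) := by
  simp only [LT, D.dir_eq', D.nrm_eq', one_smul, one_mul, zero_add]

end BD

end Vale.Agent.P207.N3.H908
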