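import Vale.Agent.P207.N3.H156.GeoA
import Vale.Agent.P207.N3.H76.Asm2

/-!
# P207, line N3: `Fiber` for the leaves of the model (A) (helper908)

`fiberG`: over any `Geo`; `fiberA`: for `geoA`.
-/

open scoped Manifold ContDiff Topology
open Set Filter

set_option maxSynthPendingDepth 3
set_option linter.unusedSectionVars false

noncomputable section

namespace Vale.Agent.P207.N3.H908

theorem ext_eq_ext (a : O2) : H76.ext a = ext a := by
  ext v i
  refine Fin.cases ?_ (fun j => ?_) i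
  · rw [ext_zero]
    rfl
  · rw [ext_succ]
    fin_cases j <;> rfl

section G

variable {Γ X Y : Type} [Group Γ] [MetricSpace X] [ProperSpace X] [MulAction Γ X]
  [IsIsometricSMul Γ X] [MetricSpace Y] [ProperSpace Y] [MulAction Γ Y] [IsIsometricSMul Γ Y]
  {G : H76.Geo Γ X Y} {j : Y ≃ₜ EV 3} {I : G.In3 j} {r₀ t₁ χ : ℝ}

/-- the fibre over a point -/
def fiberG (hc : H76.Geo.Cst I r₀ t₁ χ) (o : Y) (x₀ : X)
    (hx : ∀ (Z : Type) [TopologicalSpace Z] (R : Z → O3),
      (Continuous fun p : Z × E3 => R p.1 p.2) → Continuous fun y => G.act (R y) x₀) :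
    Fiber (hc.leaf o) :=
  mkFiber (hc.leaf o) x₀ G.act G.act_mul
    (fun a x => by
      rw [← ext_eq_ext]
      rfl) hx

end G

section A

open Vale.Agent.P255 (RMetric)
open Vale.Agent.P207 Vale.Agent.P207.Q
open H465 (Mt Xt)

variable {M : Type} [TopologicalSpace M] [ChartedSpace (EV 3) M]
  [IsManifold 𝓘(ℝ, EV 3) ∞ M] {g : RMetric (EV 3) M} [CompactSpace M] [T2Space M]
  [ConnectedSpace M] [Nonempty (Fr g)]

/-- **the fibre over the foot point of `x₀`, in the model (A)** -/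
def fiberA (hN : NegCurvature g) (m : M)
    {j : Mt (sys g (npc_of_neg hN)) m ≃ₜ EV 3} {I : (H156.geoA hN m).In3 j} {r₀ t₁ χ : ℝ}
    (hc : H76.Geo.Cst I r₀ t₁ χ) (o : Mt (sys g (npc_of_neg hN)) m)
    (x₀ : Xt g (npc_of_neg hN) m) : Fiber (hc.leaf o) :=
  fiberG hc o x₀ fun _ _ _ hR => continuous_rotE_left hR x₀

end A

end Vale.Agent.P207.N3.H908
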