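import Vale.Agent.P207.N3.H908.Cross

/-!
# Smooth Hessians imply that `B` is a smooth sphere (helper908, line N3 of P207, row P12G)

* `ell_chart_jc` : `D b_{e x u} (q)` is a smooth function of `(u, q)`, jointly continuous in `x`;
* `tau_all` : the transition maps `(e y)⁻¹ ∘ e x` are smooth for all `x`, `y`;
* `D_jc` : `D (e x u) (e y v)` is a smooth function of `(u, v)`.
-/

set_option linter.unusedSectionVars false

open Set Filter Topology Metric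
open scoped ContDiff

noncomputable section

namespace Vale.Agent.P207.N3.H908

open Vale.Agent.P207.N3.H459

namespace SB

variable {X B V : Type} [TopologicalSpace X] [TopologicalSpace B] [CompactSpace B] [T2Space B]
  [NormedAddCommGroup V] [NormedSpace ℝ V] [FiniteDimensional ℝ V]
  (M : SB X B V)

/-- the chart of the leaf of `x` -/
def e (x : X) (u : E2) : B := M.L.e x u

theorem e_eq (x : X) (u : E2) : M.e x u = M.D.line (M.L.em x) (M.P x u) := M.line_eq _ _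

theorem ell_e (x : X) (u : E2) :
    M.D.ell (M.e x u) (M.P x u) = -M.D.ell (M.L.em x) (M.P x u) := by
  rw [e_eq, M.D.ell_line]

variable [Nonempty B]

theorem chart_jc (hs : M.D.SmoothHess) : JC (fun x (p : E2 × V) =>
    M.D.LT (M.P x p.1, (-M.D.ell (M.L.em x) (M.P x p.1), 0)) p.2)
    (univ ×ˢ (M.BR ×ˢ univ)) := by
  set S : Set (X × (E2 × V)) := univ ×ˢ (M.BR ×ˢ univ) with hS
  have hSo : IsOpen S := isOpen_univ.prod (M.isOpen_BR.prod isOpen_univ)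
  have hid : JC (fun (_ : X) (p : E2 × V) => p) S := JC.id hSo
  have hP : JC (fun x (p : E2 × V) => M.P x p.1) S :=
    M.P_jc.comp' hid.fst fun p hp => ⟨mem_univ _, hp.2.1⟩
  have hell : JC (fun x (q : V) => M.D.ell (M.L.em x) q) univ :=
    (M.D.ell_jc.pullback M.L.em_cont).mono isOpen_univ fun p _ => mem_univ _
  have h1 : JC (fun x (p : E2 × V) => M.D.ell (M.L.em x) (M.P x p.1)) S :=
    hell.comp' hP fun p _ => mem_univ _
  have h2 : JC (fun x (p : E2 × V) =>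
      ((M.P x p.1, (-M.D.ell (M.L.em x) (M.P x p.1), (0 : ℝ))), p.2)) S :=
    (hP.prodMk (h1.neg.prodMk (JC.const hSo 0))).prodMk hid.snd
  refine h2.comp_contDiffOn (φ := fun z : (V × ((V →L[ℝ] ℝ) × ℝ)) × V => M.D.LT z.1 z.2)
    (U := BD.Om ×ˢ univ) ?_ (M.D.LT_smooth hs) fun p _ => ⟨?_, mem_univ _⟩
  · exact ((M.D.tot hs).isOpen).prod isOpen_univ
  · change -M.D.ell (M.L.em p.1) (M.P p.1 p.2.1) ≠ 0
    exact neg_ne_zero.2 (M.D.ell_ne _ _)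

theorem LT_chart (x : X) (u : E2) (q : V) :
    M.D.LT (M.P x u, (-M.D.ell (M.L.em x) (M.P x u), 0)) q
      = (M.D.ell (M.e x u) q, M.D.b (M.e x u) q - M.D.b (M.e x u) (M.P x u)) := by
  rw [← M.ell_e, M.D.LT_ell]

/-- the differential of the Busemann function of `e x u` -/
theorem ell_chart_jc (hs : M.D.SmoothHess) :
    JC (fun x (p : E2 × V) => M.D.ell (M.e x p.1) p.2) (univ ×ˢ (M.BR ×ˢ univ)) := by
  refine (M.chart_jc hs).fst.congr fun p _ => ?_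
  rw [M.LT_chart]

/-- the Busemann function of `e x u`, normalised at `o` -/
theorem b_chart_jc (hs : M.D.SmoothHess) (o : V) :
    JC (fun x (p : E2 × V) => M.D.b (M.e x p.1) p.2 - M.D.b (M.e x p.1) o)
      (univ ×ˢ (M.BR ×ˢ univ)) := by
  have hS : IsOpen (univ ×ˢ (M.BR ×ˢ univ) : Set (X × (E2 × V))) :=
    isOpen_univ.prod (M.isOpen_BR.prod isOpen_univ)
  have h1 := (M.chart_jc hs).snd
  have h2 : JC (fun (_ : X) (p : E2 × V) => (p.1, o)) (univ ×ˢ (M.BR ×ˢ univ) : Set (X × (E2 × V))) :=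
    (JC.id hS).fst.prodMk (JC.const hS o)
  have h3 : JC (fun x (p : E2 × V) => (M.D.LT (M.P x p.1,
      (-M.D.ell (M.L.em x) (M.P x p.1), 0)) o).2) (univ ×ˢ (M.BR ×ˢ univ)) :=
    h1.comp' h2 fun p hp => ⟨mem_univ _, hp.2.1, mem_univ _⟩
  refine (h1.sub h3).congr fun p _ => ?_
  rw [M.LT_chart, M.LT_chart]
  ring

/-! ### The transition maps -/

/-- intersection of a geodesic with the disc of `y` -/
theorem tau_local_all (hs : M.D.SmoothHess) {x₀ y₀ : X} {u₀ v₀ : E2} (hu : u₀ ∈ M.BR)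
    (hv : v₀ ∈ M.BR) (h : M.e x₀ u₀ = M.e y₀ v₀) :
    ∃ (T : Set ((X × X) × E2)) (φ : X × X → E2 → E2), JC φ T ∧ ((x₀, y₀), u₀) ∈ T ∧
      φ (x₀, y₀) u₀ = v₀ ∧ (∀ p ∈ T, p.2 ∈ M.BR ∧ φ p.1 p.2 ∈ M.BR ∧
        M.e p.1.2 (φ p.1 p.2) = M.e p.1.1 p.2) ∧
      ∃ O : Set ((X × X) × (E2 × E2)), IsOpen O ∧ ((x₀, y₀), (u₀, v₀)) ∈ O ∧ ∀ p ∈ O,
        M.e p.1.2 p.2.2 = M.e p.1.1 p.2.1 → (p.1, p.2.1) ∈ T ∧ φ p.1 p.2.1 = p.2.2 := by
  set S₀ : Set ((X × X) × E2) := univ ×ˢ M.BR with hS₀d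
  have hS₀ : IsOpen S₀ := isOpen_univ.prod M.isOpen_BR
  have hSV : IsOpen ({p | (p.1, p.2.1) ∈ S₀} : Set ((X × X) × (E2 × V))) :=
    hS₀.preimage (f := fun p : (X × X) × (E2 × V) => (p.1, p.2.1)) (by fun_prop)
  have hξ : JC (fun (z : X × X) (p : E2 × V) => M.D.ell (M.L.em z.2) p.2)
      {p | (p.1, p.2.1) ∈ S₀} := by
    have h1 : JC (fun (z : X × X) (q : V) => M.D.ell (M.L.em z.2) q) univ :=
      (M.D.ell_jc.pullback (M.L.em_cont.comp continuous_snd)).mono isOpen_univ fun p _ => mem_univ _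
    exact h1.comp' (JC.id hSV).snd fun p _ => mem_univ _
  have hη : JC (fun (z : X × X) (p : E2 × V) => M.D.ell (M.e z.1 p.1) p.2)
      {p | (p.1, p.2.1) ∈ S₀} := by
    have h1 := (M.ell_chart_jc hs).pullback (continuous_fst : Continuous fun z : X × X => z.1)
    exact h1.mono hSV fun p hp => ⟨mem_univ _, hp.2, mem_univ _⟩
  obtain ⟨T, φ, h1, h2, h3, h4, O, h5, h6, h7⟩ := M.cross (Z := X × X) (E := E2)
    (ξ := fun z _ => M.L.em z.2) (η := fun z u => M.e z.1 u) (y := fun z => z.2)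
    continuous_snd hS₀ hξ hη (z₀ := (x₀, y₀)) (u₀ := u₀) (a₀ := v₀) ⟨mem_univ _, hu⟩ hv rfl
    (by rw [h, e_eq])
  refine ⟨T, φ, h1, h2, h3, fun p hp => ?_, O, h5, h6, fun p hp hl => ?_⟩
  · obtain ⟨h8, h9, h10⟩ := h4 p hp
    exact ⟨h8.2, h9, by rw [e_eq]; exact h10⟩
  · exact h7 p hp (by rw [e_eq] at hl; exact hl)

theorem mem_BR {u : E2} (hu : u ∈ closedBall (0 : E2) 3) : u ∈ M.BR :=
  closedBall_subset_ball M.L.R_gt hu

/-- **The transition maps are smooth for all pairs of frames**, with jointly continuous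
derivatives. -/
theorem tau_all (hs : M.D.SmoothHess) : JC (fun z : X × X => tau M.L.e z.1 z.2)
    {p : (X × X) × E2 | p.2 ∈ dom M.L.e p.1.1 p.1.2} := by
  have key : ∀ p ∈ {p : (X × X) × E2 | p.2 ∈ dom M.L.e p.1.1 p.1.2},
      ∃ T : Set ((X × X) × E2), p ∈ T ∧ T ⊆ {p : (X × X) × E2 | p.2 ∈ dom M.L.e p.1.1 p.1.2} ∧
        JC (fun z : X × X => tau M.L.e z.1 z.2) T := by
    rintro ⟨⟨x₀, y₀⟩, u₀⟩ ⟨hu, v₀, hv, hvu⟩
    simp only at hu hvu
    obtain ⟨T, φ, h1, h2, h3, h4, -⟩ := M.tau_local_all hs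
      (M.mem_BR (ball_subset_closedBall hu)) (M.mem_BR (ball_subset_closedBall hv))
      (show M.e x₀ u₀ = M.e y₀ v₀ from hvu.symm)
    have hT1 : IsOpen {p ∈ T | p.2 ∈ ball (0 : E2) 3 ∧ φ p.1 p.2 ∈ ball (0 : E2) 3} := by
      have hg : ContinuousOn (fun p : (X × X) × E2 => (p.2, φ p.1 p.2)) T :=
        continuousOn_snd.prodMk h1.continuousOn
      exact hg.isOpen_inter_preimage h1.isOpen (isOpen_ball.prod isOpen_ball)
    refine ⟨{p ∈ T | p.2 ∈ ball (0 : E2) 3 ∧ φ p.1 p.2 ∈ ball (0 : E2) 3}, ⟨h2, hu, ?_⟩, ?_,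
      (h1.mono hT1 fun p hp => hp.1).congr ?_⟩
    · change φ (x₀, y₀) u₀ ∈ ball (0 : E2) 3
      rw [h3]
      exact hv
    · rintro p ⟨hp1, hp2, hp3⟩
      exact ⟨hp2, φ p.1 p.2, hp3, (h4 p hp1).2.2⟩
    · rintro p ⟨hp1, hp2, hp3⟩
      exact M.L.tau_eq (ball_subset_closedBall hp3) (h4 p hp1).2.2.symm
  have hopen : IsOpen {p : (X × X) × E2 | p.2 ∈ dom M.L.e p.1.1 p.1.2} := by
    rw [isOpen_iff_mem_nhds]
    intro p hp
    obtain ⟨T, hT1, hT2, hT3⟩ := key p hp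
    exact mem_of_superset (hT3.isOpen.mem_nhds hT1) hT2
  exact JC.of_local hopen fun p hp => by
    obtain ⟨T, hT1, -, hT3⟩ := key p hp
    exact ⟨T, hT1, hT3⟩

/-! ### The function `D` -/

/-- **`D (e x u) (e y v)` is a smooth function of `(u, v)`**, with jointly continuous
derivatives. -/
theorem D_jc (hs : M.D.SmoothHess) (hjoin : ∀ ξ η : B, ξ ≠ η → ∃ q, M.D.line ξ q = η)
    (o : V) (Dd : B → B → ℝ) (hDd : ∀ ξ q, Dd ξ (M.D.line ξ q)
      = (M.D.b ξ q - M.D.b ξ o) + (M.D.b (M.D.line ξ q) q - M.D.b (M.D.line ξ q) o)) :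
    JC (fun (z : X × X) (p : E2 × E2) => Dd (M.e z.1 p.1) (M.e z.2 p.2))
      {p | p.2.1 ∈ M.BR ∧ p.2.2 ∈ M.BR ∧ M.e p.1.1 p.2.1 ≠ M.e p.1.2 p.2.2} := by
  set S₀ : Set ((X × X) × (E2 × E2)) := univ ×ˢ (M.BR ×ˢ M.BR) with hS₀d
  have hS₀ : IsOpen S₀ := isOpen_univ.prod (M.isOpen_BR.prod M.isOpen_BR)
  have hSV : IsOpen ({p | (p.1, p.2.1) ∈ S₀} : Set ((X × X) × ((E2 × E2) × V))) :=
    hS₀.preimage (f := fun p : (X × X) × ((E2 × E2) × V) => (p.1, p.2.1)) (by fun_prop)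
  have hidV : JC (fun (_ : X × X) (p : (E2 × E2) × V) => p) {p | (p.1, p.2.1) ∈ S₀} := JC.id hSV
  have hin1 : JC (fun (_ : X × X) (p : (E2 × E2) × V) => (p.1.1, p.2)) {p | (p.1, p.2.1) ∈ S₀} :=
    hidV.fst.fst.prodMk hidV.snd
  have hin2 : JC (fun (_ : X × X) (p : (E2 × E2) × V) => (p.1.2, p.2)) {p | (p.1, p.2.1) ∈ S₀} :=
    hidV.fst.snd.prodMk hidV.snd
  have hξ : JC (fun (z : X × X) (p : (E2 × E2) × V) => M.D.ell (M.e z.1 p.1.1) p.2)
      {p | (p.1, p.2.1) ∈ S₀} :=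
    ((M.ell_chart_jc hs).pullback (continuous_fst : Continuous fun z : X × X => z.1)).comp' hin1
      fun p hp => ⟨mem_univ _, hp.2.1, mem_univ _⟩
  have hη : JC (fun (z : X × X) (p : (E2 × E2) × V) => M.D.ell (M.e z.2 p.1.2) p.2)
      {p | (p.1, p.2.1) ∈ S₀} :=
    ((M.ell_chart_jc hs).pullback (continuous_snd : Continuous fun z : X × X => z.2)).comp' hin2
      fun p hp => ⟨mem_univ _, hp.2.2, mem_univ _⟩
  have hbξ : JC (fun (z : X × X) (p : (E2 × E2) × V) =>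
      M.D.b (M.e z.1 p.1.1) p.2 - M.D.b (M.e z.1 p.1.1) o) {p | (p.1, p.2.1) ∈ S₀} :=
    ((M.b_chart_jc hs o).pullback (continuous_fst : Continuous fun z : X × X => z.1)).comp' hin1
      fun p hp => ⟨mem_univ _, hp.2.1, mem_univ _⟩
  have hbη : JC (fun (z : X × X) (p : (E2 × E2) × V) =>
      M.D.b (M.e z.2 p.1.2) p.2 - M.D.b (M.e z.2 p.1.2) o) {p | (p.1, p.2.1) ∈ S₀} :=
    ((M.b_chart_jc hs o).pullback (continuous_snd : Continuous fun z : X × X => z.2)).comp' hin2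
      fun p hp => ⟨mem_univ _, hp.2.2, mem_univ _⟩
  -- the set is open
  have hecont : ContinuousOn (fun p : (X × X) × (E2 × E2) =>
      (M.e p.1.1 p.2.1, M.e p.1.2 p.2.2)) S₀ := by
    have h1 : ContinuousOn (fun p : (X × X) × (E2 × E2) => M.e p.1.1 p.2.1) S₀ :=
      M.L.e_cont_R.comp (f := fun p : (X × X) × (E2 × E2) => (p.1.1, p.2.1)) (by fun_prop)
        fun p hp => ⟨mem_univ _, hp.2.1⟩
    have h2 : ContinuousOn (fun p : (X × X) × (E2 × E2) => M.e p.1.2 p.2.2) S₀ :=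
      M.L.e_cont_R.comp (f := fun p : (X × X) × (E2 × E2) => (p.1.2, p.2.2)) (by fun_prop)
        fun p hp => ⟨mem_univ _, hp.2.2⟩
    exact h1.prodMk h2
  have hSet : {p : (X × X) × (E2 × E2) | p.2.1 ∈ M.BR ∧ p.2.2 ∈ M.BR ∧
      M.e p.1.1 p.2.1 ≠ M.e p.1.2 p.2.2} = S₀ ∩ (fun p : (X × X) × (E2 × E2) =>
      (M.e p.1.1 p.2.1, M.e p.1.2 p.2.2)) ⁻¹' (diagonal B)ᶜ := by
    ext p
    constructor
    · rintro ⟨h1, h2, h3⟩
      exact ⟨⟨mem_univ _, h1, h2⟩, h3⟩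
    · rintro ⟨⟨-, h1, h2⟩, h3⟩
      exact ⟨h1, h2, h3⟩
  have hopen : IsOpen {p : (X × X) × (E2 × E2) | p.2.1 ∈ M.BR ∧ p.2.2 ∈ M.BR ∧
      M.e p.1.1 p.2.1 ≠ M.e p.1.2 p.2.2} := by
    rw [hSet]
    exact hecont.isOpen_inter_preimage hS₀ isClosed_diagonal.isOpen_compl
  refine JC.of_local hopen ?_
  rintro ⟨⟨x₀, y₀⟩, u₀, v₀⟩ ⟨hu, hv, hne⟩
  simp only at hu hv hne
  obtain ⟨q, hq⟩ := hjoin _ _ hne
  obtain ⟨w, hw1, hw2⟩ := M.L.frame (M.e x₀ u₀) q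
  have hPw : M.P w 0 = q := by
    rw [P, ← hw2, ← M.L.A_zero w]
    rfl
  have h0BR : (0 : E2) ∈ M.BR := M.L.zero_mem
  obtain ⟨T, φ, h1, h2, h3, h4, -⟩ := M.cross (Z := X × X) (E := E2 × E2)
    (ξ := fun z p => M.e z.1 p.1) (η := fun z p => M.e z.2 p.2) (y := fun _ => w)
    continuous_const hS₀ hξ hη (z₀ := (x₀, y₀)) (u₀ := (u₀, v₀)) (a₀ := 0)
    ⟨mem_univ _, hu, hv⟩ h0BR hw1 (by rw [hPw, hq])
  refine ⟨T, h2, ?_⟩
  -- the point of the geodesic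
  have hPφ : JC (fun (z : X × X) (p : E2 × E2) => M.P w (φ z p)) T := by
    have h5 : JC (fun (_ : X × X) (a : E2) => M.P w a) (univ ×ˢ M.BR) :=
      (M.P_jc.pullback (continuous_const : Continuous fun _ : X × X => w)).mono
        (isOpen_univ.prod M.isOpen_BR) fun p hp => ⟨mem_univ _, hp.2⟩
    exact h5.comp' h1 fun p hp => ⟨mem_univ _, (h4 p hp).2.1⟩
  have hpair : JC (fun (z : X × X) (p : E2 × E2) => (p, M.P w (φ z p))) T :=
    (JC.id h1.isOpen).prodMk hPφ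
  have h6 := (hbξ.comp' hpair fun p hp => (h4 p hp).1).add
    (hbη.comp' hpair fun p hp => (h4 p hp).1)
  refine h6.congr fun p hp => ?_
  have h7 := (h4 p hp).2.2
  have h8 := hDd (M.e p.1.1 p.2.1) (M.P w (φ p.1 p.2))
  rw [h7] at h8
  exact h8

end SB

end Vale.Agent.P207.N3.H908
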