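import Vale.Agent.P255.Bdl.B2

/-!
# Total differential equations with smooth right side (helper908, line N3 of P207, row P12G)

`DΛ_p (q) = H (q, Λ_p q)`, `Λ_p (p.1) = p.2`, `H` smooth, and the solutions `Λ_p` exist everywhere:
then `(p, q) ↦ Λ_p q` is smooth.
-/

open Set Filter Topology Metric
open scoped ContDiff

noncomputable section

namespace Vale.Agent.P207.N3.H908

section Uniq

variable {F : Type} [NormedAddCommGroup F] [NormedSpace ℝ F]

/-- Two solutions of a smooth differential equation which agree at one point agree. -/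
theorem ode_eqOn {f : F → F} {U : Set F} (hU : IsOpen U) (hf : ContDiffOn ℝ ∞ f U)
    {I : Set ℝ} (hI : IsOpen I) (hc : IsPreconnected I) {γ δ : ℝ → F}
    (h1 : ∀ t ∈ I, γ t ∈ U ∧ HasDerivAt γ (f (γ t)) t)
    (h2 : ∀ t ∈ I, δ t ∈ U ∧ HasDerivAt δ (f (δ t)) t) {t₀ : ℝ} (ht₀ : t₀ ∈ I)
    (h0 : γ t₀ = δ t₀) : EqOn γ δ I := by
  have key : ∀ t ∈ I, γ t = δ t → γ =ᶠ[𝓝 t] δ := by
    intro t ht heq
    have hfat : ContDiffAt ℝ 1 f (γ t) :=
      (hf.contDiffAt (hU.mem_nhds (h1 t ht).1)).of_le (by exact_mod_cast le_top)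
    obtain ⟨K, s, hs, hL⟩ := hfat.exists_lipschitzOnWith
    refine ODE_solution_unique_of_eventually (v := fun _ => f) (s := fun _ => s) (K := K)
      (Eventually.of_forall fun _ => hL) ?_ ?_ heq
    · filter_upwards [hI.mem_nhds ht, (h1 t ht).2.continuousAt.preimage_mem_nhds hs] with r hr hr'
      exact ⟨(h1 r hr).2, hr'⟩
    · rw [heq] at hs
      filter_upwards [hI.mem_nhds ht, (h2 t ht).2.continuousAt.preimage_mem_nhds hs] with r hr hr'
      exact ⟨(h2 r hr).2, hr'⟩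
  have hγc : ContinuousOn γ I := fun t ht => (h1 t ht).2.continuousAt.continuousWithinAt
  have hδc : ContinuousOn δ I := fun t ht => (h2 t ht).2.continuousAt.continuousWithinAt
  have ho1 : IsOpen {t | t ∈ I ∧ γ =ᶠ[𝓝 t] δ} := by
    rw [isOpen_iff_mem_nhds]
    rintro t ⟨ht, heq⟩
    filter_upwards [hI.mem_nhds ht, eventually_eventually_nhds.2 heq] with r hr hr'
    exact ⟨hr, hr'⟩
  have ho2 : IsOpen {t | t ∈ I ∧ γ t ≠ δ t} := by
    rw [isOpen_iff_mem_nhds]
    rintro t ⟨ht, hne⟩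
    have hca : ContinuousAt (fun r => (γ r, δ r)) t :=
      ((h1 t ht).2.continuousAt).prodMk ((h2 t ht).2.continuousAt)
    have := hca.eventually ((isClosed_diagonal.isOpen_compl).mem_nhds hne)
    filter_upwards [hI.mem_nhds ht, this] with r hr hr'
    exact ⟨hr, hr'⟩
  have hsub : I ⊆ {t | t ∈ I ∧ γ =ᶠ[𝓝 t] δ} := by
    refine hc.subset_left_of_subset_union ho1 ho2 ?_ ?_ ⟨t₀, ht₀, ht₀, key t₀ ht₀ h0⟩
    · rw [Set.disjoint_left]
      rintro t ⟨_, h⟩ ⟨_, h'⟩
      exact h' h.eq_of_nhds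
    · intro t ht
      by_cases h : γ t = δ t
      · exact Or.inl ⟨ht, key t ht h⟩
      · exact Or.inr ⟨ht, h⟩
  exact fun t ht => (hsub ht).2.eq_of_nhds

end Uniq

variable {V E : Type} [NormedAddCommGroup V] [NormedSpace ℝ V]
  [NormedAddCommGroup E] [NormedSpace ℝ E]

/-- The functions `Λ p` are the solutions of the total differential equation
`DΛ (q) = H (q, Λ q)` with the value `p.2` at `p.1`. -/
structure Tot (Ω : Set (V × E)) (H : V × E → V →L[ℝ] E) (Λ : V × E → V → E) : Prop where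
  isOpen : IsOpen Ω
  smooth : ContDiffOn ℝ ∞ H Ω
  zero : ∀ p ∈ Ω, Λ p p.1 = p.2
  mem : ∀ p ∈ Ω, ∀ q, (q, Λ p q) ∈ Ω
  deriv : ∀ p ∈ Ω, ∀ q, HasFDerivAt (Λ p) (H (q, Λ p q)) q
  move : ∀ p ∈ Ω, ∀ q q', Λ (q, Λ p q) q' = Λ p q'

variable {Ω : Set (V × E)} {H : V × E → V →L[ℝ] E} {Λ : V × E → V → E}

/-- smoothness near the diagonal -/
theorem Tot.contDiffAt_diag [FiniteDimensional ℝ V] [FiniteDimensional ℝ E] (h : Tot Ω H Λ)
    {p₀ : V × E} (hp₀ : p₀ ∈ Ω) :
    ∀ᶠ y in 𝓝 (p₀, p₀.1), ContDiffAt ℝ ∞ (fun x : (V × E) × V => Λ x.1 x.2) y := by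
  set f : V × E × V → V × E × V := fun z => (z.2.2, H (z.1, z.2.1) z.2.2, 0) with hfd
  set U : Set (V × E × V) := {z | (z.1, z.2.1) ∈ Ω} with hUd
  have hproj : Continuous fun z : V × E × V => (z.1, z.2.1) := by fun_prop
  have hU : IsOpen U := h.isOpen.preimage hproj
  have hf : ContDiffOn ℝ ∞ f U := by
    have h1 : ContDiffOn ℝ ∞ (fun z : V × E × V => H (z.1, z.2.1)) U := by
      refine h.smooth.comp (ContDiff.contDiffOn ?_) (fun z hz => hz)
      exact contDiff_fst.prodMk (contDiff_fst.comp contDiff_snd)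
    have h2 : ContDiff ℝ ∞ (fun z : V × E × V => z.2.2) := contDiff_snd.comp contDiff_snd
    exact h2.contDiffOn.prodMk ((h1.clm_apply h2.contDiffOn).prodMk contDiffOn_const)
  obtain ⟨ε, hε, W, hW, hx, Φ, h0, h1, h2⟩ :=
    P255.exists_flow_smooth f U hU hf (p₀.1, p₀.2, 0) (by simpa [hUd] using hp₀)
  have claim : ∀ z ∈ W, ∀ t ∈ Ioo (-ε) ε,
      Φ t z = (z.1 + t • z.2.2, Λ (z.1, z.2.1) (z.1 + t • z.2.2), z.2.2) := by
    intro z hz t ht
    have h00 : (0 : ℝ) ∈ Ioo (-ε) ε := ⟨by linarith, hε⟩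
    have hzU : (z.1, z.2.1) ∈ Ω := by
      have := (h1 z hz 0 h00).1
      rw [h0 z hz] at this
      exact this
    refine ode_eqOn (γ := fun t => Φ t z)
      (δ := fun t => (z.1 + t • z.2.2, Λ (z.1, z.2.1) (z.1 + t • z.2.2), z.2.2))
      hU hf isOpen_Ioo isPreconnected_Ioo (h1 z hz) ?_ h00 ?_ ht
    · intro s _
      refine ⟨h.mem _ hzU _, ?_⟩
      have d1 : HasDerivAt (fun s : ℝ => z.1 + s • z.2.2) z.2.2 s := by
        simpa using ((hasDerivAt_id s).smul_const z.2.2).const_add z.1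
      have d2 : HasDerivAt (fun s : ℝ => Λ (z.1, z.2.1) (z.1 + s • z.2.2))
          (H (z.1 + s • z.2.2, Λ (z.1, z.2.1) (z.1 + s • z.2.2)) z.2.2) s :=
        (h.deriv _ hzU (z.1 + s • z.2.2)).comp_hasDerivAt s d1
      exact d1.prodMk (d2.prodMk (hasDerivAt_const s z.2.2))
    · rw [h0 z hz]
      simp only [zero_smul, add_zero]
      rw [h.zero _ hzU]
  -- the rescaled flow
  have hε2 : ε / 2 ∈ Ioo (-ε) ε := ⟨by linarith, by linarith⟩
  set ι : (V × E) × V → V × E × V := fun x => (x.1.1, x.1.2, (2 / ε) • (x.2 - x.1.1)) with hι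
  have hιs : ContDiff ℝ ∞ ι := by
    refine (contDiff_fst.comp contDiff_fst).prodMk ((contDiff_snd.comp contDiff_fst).prodMk ?_)
    exact (contDiff_snd.sub (contDiff_fst.comp contDiff_fst)).const_smul _
  have hι0 : ι (p₀, p₀.1) = (p₀.1, p₀.2, 0) := by simp [hι]
  have hιW : ∀ᶠ x in 𝓝 ((p₀, p₀.1) : (V × E) × V), ι x ∈ W := by
    refine hιs.continuous.continuousAt.eventually ?_
    rw [hι0]
    exact hW.mem_nhds hx
  filter_upwards [eventually_eventually_nhds.2 hιW] with y hy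
  have hyW : ι y ∈ W := hy.self_of_nhds
  have hΦ : ContDiffAt ℝ ∞ (fun x : (V × E) × V => (Φ (ε / 2) (ι x)).2.1) y := by
    have e1 : ContDiffAt ℝ ∞ (fun p : ℝ × (V × E × V) => Φ p.1 p.2) (ε / 2, ι y) :=
      h2.contDiffAt ((isOpen_Ioo.prod hW).mem_nhds ⟨hε2, hyW⟩)
    have e2 : ContDiffAt ℝ ∞ (fun x : (V × E) × V => (ε / 2, ι x)) y :=
      contDiffAt_const.prodMk hιs.contDiffAt
    have e3 := e1.comp y e2
    exact (contDiff_fst.comp contDiff_snd).contDiffAt.comp y e3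
  refine hΦ.congr_of_eventuallyEq ?_
  filter_upwards [hy] with x hx'
  rw [claim _ hx' _ hε2]
  simp only [hι]
  have : x.1.1 + (ε / 2) • (2 / ε) • (x.2 - x.1.1) = x.2 := by
    rw [smul_smul, div_mul_div_comm, mul_comm ε 2, div_self (by positivity), one_smul,
      add_sub_cancel]
  rw [this]

/-- **Smooth dependence of the solutions of a total differential equation.** -/
theorem Tot.contDiffAt [FiniteDimensional ℝ V] [FiniteDimensional ℝ E] (h : Tot Ω H Λ)
    {p₀ : V × E} (hp₀ : p₀ ∈ Ω) (q₀ : V) :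
    ContDiffAt ℝ ∞ (fun x : (V × E) × V => Λ x.1 x.2) (p₀, q₀) := by
  set P : V → V → Prop := fun y z =>
    ContDiffAt ℝ ∞ (fun x : (V × E) × V => Λ x.1 x.2) (p₀, y) →
      ContDiffAt ℝ ∞ (fun x : (V × E) × V => Λ x.1 x.2) (p₀, z) with hP
  have hloc : ∀ x, ∀ᶠ w in 𝓝 ((x, x) : V × V), P w.1 w.2 := by
    intro x
    have hev := h.contDiffAt_diag (h.mem p₀ hp₀ x)
    have hcont : ContinuousAt (fun w : V × V => (((w.1, Λ p₀ w.1), w.2) : (V × E) × V)) (x, x) := by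
      have c1 : ContinuousAt (fun w : V × V => Λ p₀ w.1) (x, x) :=
        ContinuousAt.comp (f := fun w : V × V => w.1) (x := (x, x))
          (h.deriv p₀ hp₀ x).continuousAt continuousAt_fst
      exact (continuousAt_fst.prodMk c1).prodMk continuousAt_snd
    filter_upwards [hcont.eventually hev] with w hw hy
    -- `Λ p q = Λ (w.1, Λ p w.1) q`
    have hpart : ContDiffAt ℝ ∞ (fun p : V × E => Λ p w.1) p₀ := by
      have := hy.comp p₀ (contDiffAt_id.prodMk contDiffAt_const)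
      exact this
    have e2 : ContDiffAt ℝ ∞ (fun x : (V × E) × V => (((w.1, Λ x.1 w.1), x.2) : (V × E) × V))
        (p₀, w.2) := by
      refine ContDiffAt.prodMk (contDiffAt_const.prodMk ?_) contDiffAt_snd
      exact hpart.comp (p₀, w.2) contDiffAt_fst
    have e3 := ContDiffAt.comp (p₀, w.2) (g := fun x : (V × E) × V => Λ x.1 x.2) hw e2
    refine e3.congr_of_eventuallyEq ?_
    have hΩ : ∀ᶠ x in 𝓝 ((p₀, w.2) : (V × E) × V), x.1 ∈ Ω :=
      continuousAt_fst.eventually (h.isOpen.mem_nhds hp₀)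
    filter_upwards [hΩ] with x hx
    exact (h.move _ hx _ _).symm
  have hall : P p₀.1 q₀ := by
    refine PreconnectedSpace.induction₂' P (fun x => ?_) ⟨fun a b c hab hbc ha => hbc (hab ha)⟩ _ _
    have h1 : Tendsto (fun y : V => (x, y)) (𝓝 x) (𝓝 (x, x)) :=
      (Continuous.prodMk_right x).tendsto x
    have h2 : Tendsto (fun y : V => (y, x)) (𝓝 x) (𝓝 (x, x)) :=
      (Continuous.prodMk_left x).tendsto x
    filter_upwards [h1.eventually (hloc x), h2.eventually (hloc x)] with y hy1 hy2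
    exact ⟨hy1, hy2⟩
  exact hall (h.contDiffAt_diag hp₀).self_of_nhds

theorem Tot.contDiffOn [FiniteDimensional ℝ V] [FiniteDimensional ℝ E] (h : Tot Ω H Λ) :
    ContDiffOn ℝ ∞ (fun x : (V × E) × V => Λ x.1 x.2) (Ω ×ˢ univ) :=
  fun x hx => (h.contDiffAt hx.1 x.2).contDiffWithinAt

end Vale.Agent.P207.N3.H908
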